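import Vale.Agent.P022D.Gma.Rep

namespace Vale.Agent.P022E.Gma
export Vale.Agent.P022D.Gma (
  ent con root_unique ent_map lin_of mu_eq CH ind lin mu exists_conj exists_rep exists_lift
  M2 mu_map eq_mat hensel rep_unique lin_comm lin_pol mat ent_eq mat_mem henselian_of_pow
  mat_map mat_congr exists_ch)
end Vale.Agent.P022E.Gma

namespace Vale.Agent.P022E.Gma.CH
export Vale.Agent.P022D.Gma.CH (
  units pol comm one sand mk)
end Vale.Agent.P022E.Gma.CH
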